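import Crest.Agent.X212.Cyf70.L2
import Crest.Agent.X212.Prm93.Fam
import Crest.Agent.X212.Sob92.Iso
import Crest.Agent.X212.Sob92.Fun
import Crest.Agent.X212.Met55.Mix

/-!
# Row 212, MS-CAL-F (helper97): families with locally uniform compact support; slice integrals
-/

set_option autoImplicit false
set_option linter.unusedSectionVars false
noncomputable section
open scoped Manifold ContDiff Topology InnerProductSpace
open MeasureTheory Set Function Filter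

namespace Crest.Agent.X212.Clf97
open An An.Pre Sob92 Prm93 Cyf70

variable {E : Type} [NormedAddCommGroup E] [NormedSpace ℝ E] [FiniteDimensional ℝ E]
  [MeasurableSpace E] [BorelSpace E]
  {HM : Type} [TopologicalSpace HM] {I : ModelWithCorners ℝ E HM} [I.Boundaryless]
  {M : Type} [TopologicalSpace M] [ChartedSpace HM M] [IsManifold I ∞ M]
  [MeasurableSpace M] [T2Space M] [BorelSpace M] [SecondCountableTopology M]
  {E' : Type} [NormedAddCommGroup E'] [NormedSpace ℝ E'] [FiniteDimensional ℝ E']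
  [MeasurableSpace E'] [BorelSpace E']
  {HM' : Type} [TopologicalSpace HM'] {I' : ModelWithCorners ℝ E' HM'} [I'.Boundaryless]
  {M' : Type} [TopologicalSpace M'] [ChartedSpace HM' M'] [IsManifold I' ∞ M']
  [MeasurableSpace M'] [T2Space M'] [BorelSpace M'] [SecondCountableTopology M']
  {ι : Type} [Fintype ι] {N : Type} [NormedAddCommGroup N] [NormedSpace ℝ N]
  {V : Type} [NormedAddCommGroup V] [InnerProductSpace ℝ V] [CompleteSpace V]
  {T : Type} [NormedAddCommGroup T] [NormedSpace ℝ T] {O : Set T} {S : Set M}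

variable (I) in
/-- jointly smooth, with locally uniform compact support in `S` -/
structure LC (O : Set T) (S : Set M) (f : T → M → N) : Prop where
  js : JS I O f
  cp : ∀ t ∈ O, ∃ K ⊆ S, IsCompact K ∧ ∀ᶠ s in 𝓝 t, ∀ x ∉ K, f s x = 0

namespace LC
variable {f f' : T → M → N} {t : T}

theorem congr (hO : IsOpen O) (h : LC I O S f) (e : ∀ t ∈ O, f' t = f t) : LC I O S f' :=
  ⟨fun t ht x => (h.js t ht x).congr ((continuousAt_fst.eventually (hO.mem_nhds ht)).mono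
    fun z hz => congrFun (e _ hz) _), fun t ht => let ⟨K, a, b, c⟩ := h.cp t ht
      ⟨K, a, b, (c.and (hO.mem_nhds ht)).mono fun s hs => e s hs.2 ▸ hs.1⟩⟩

theorem hcs (h : LC I O S f) (ht : t ∈ O) : HasCompactSupport (f t) :=
  let ⟨_, _, b, c⟩ := h.cp t ht; .intro b c.self_of_nhds

theorem cb {F : Pre I M ι} (h : LC I O S f) (ht : t ∈ O) : F.Cb (f t) :=
  Cb_of_hcs (h.js.sm ht) (h.hcs ht)

theorem loc (F : Pre I M ι) (hO : IsOpen O) (h : LC I O S f) (ht : t ∈ O) :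
    ∃ U ∈ 𝓝 t, U ⊆ O ∧ SB F U f ∧ ∃ K, IsCompact K ∧ ∀ s ∈ U, ∀ x ∉ K, f s x = 0 := by
  obtain ⟨K, -, b, c⟩ := h.cp t ht
  obtain ⟨U, u1, u2, u3⟩ := mem_nhds_iff.1 (c.and (hO.mem_nhds ht))
  exact ⟨U, u2.mem_nhds u3, fun s hs => (u1 hs).2, Fam.sb b u2 ⟨fun s hs => h.js s (u1 hs).2,
    fun s hs => h.cb (u1 hs).2, fun s hs r hr x hx => ((u1 hs).1 x hx).trans
      ((u1 hr).1 x hx).symm⟩, K, b, fun s hs => (u1 hs).1⟩

theorem sb (F : Pre I M ι) (hO : IsOpen O) (h : LC I O S f) : SB F O f :=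
  ⟨fun _ => h.cb, fun k _ ht => let ⟨_, a, _, b, _⟩ := h.loc F hO ht
    ((b.sm k).contDiffAt a).contDiffWithinAt⟩

theorem toH (F : Pre I M ι) (hO : IsOpen O) {f : T → M → V} (h : LC I O S f) (k : ℕ) :
    ∃ δ : T → F.H k (triv M V), ContDiffOn ℝ ∞ δ O ∧ ∀ t ∈ O, Is F k _ (δ t) (f t) := by
  classical
  let s : T → Sec I (triv M V) := fun t =>
    if ht : t ∈ O then ⟨f t, mem_triv (h.js.sm ht) (h.hcs ht)⟩ else 0
  have e : ∀ t ∈ O, (s t).1 = f t := fun t ht => by simp only [s, dif_pos ht]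
  refine ⟨fun t => F.toH k _ (s t), fun t ht => ?_, fun t ht => e t ht ▸ Is.toH (s t)⟩
  obtain ⟨U, a, b, c, K, d, g⟩ := h.loc F hO ht
  obtain ⟨χ, c1, c2, -, -, c3⟩ := Met55.exists_cut (I := I) d isOpen_univ (subset_univ K)
  refine ((SB.toH (c.congr fun r hr => e r (b hr)) (Cb_const _) (fun _ _ => rfl) c1 c2
    fun r hr x => ?_).contDiffAt a).contDiffWithinAt
  by_cases hx : x ∈ K
  · rw [(c3 x hx).self_of_nhds, Pi.one_apply, one_smul]
  · rw [e r (b hr), g r hr x hx, smul_zero]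

theorem pull {φ : OpenPartialHomeomorph M M'} (hφ : ContMDiffOn I I' ∞ φ φ.source)
    {f : T → M' → N} (h : LC I' O φ.target f) : LC I O φ.source fun t => pull φ (f t) := by
  have k : ∀ t ∈ O, ∃ K ⊆ φ.source, IsCompact K ∧ ∀ᶠ s in 𝓝 t, ∀ x ∉ K, An.pull φ (f s) x = 0 :=
    fun t ht => by
    obtain ⟨K, a, b, c⟩ := h.cp t ht
    refine ⟨φ.symm '' K, image_subset_iff.2 fun y hy => φ.map_target (a hy),
      b.image_of_continuousOn (φ.continuousOn_symm.mono a), c.mono fun s hs x hx => ?_⟩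
    by_cases e : x ∈ φ.source
    · rw [pull_of_mem e, hs _ fun e' => hx ⟨_, e', φ.left_inv e⟩]
    · exact pull_of_notMem e _
  refine ⟨fun t ht x => ?_, k⟩
  by_cases e : x ∈ φ.source
  · refine ContMDiffAt.congr_of_eventuallyEq (ContMDiffAt.comp (g := fun z : T × M' => f z.1 z.2)
      (f := fun z : T × M => (z.1, φ z.2)) (t, x) (h.js t ht _) (contMDiffAt_fst.prodMk
        ((hφ.contMDiffAt (φ.open_source.mem_nhds e)).comp _ contMDiffAt_snd))) ?_
    exact (continuousAt_snd.eventually (φ.open_source.mem_nhds e)).mono fun z hz => pull_of_mem hz _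
  · obtain ⟨K, a, b, c⟩ := k t ht
    refine contMDiffAt_const.congr_of_eventuallyEq ((c.prod_nhds
      (b.isClosed.isOpen_compl.mem_nhds fun e' => e (a e'))).mono fun z hz => hz.1 _ hz.2)

end LC

/-! ### the cylinder -/

variable [CompactSpace M'] {G : Pre I' M' ι} {u : M' × ℝ → ℝ}

theorem lc_cyl (hO : IsOpen O) {ℓ : T × ℝ → ℝ} (hℓ : ContDiffOn ℝ ∞ ℓ (O ×ˢ univ))
    (hm : ∀ t ∈ O, Monotone fun r => ℓ (t, r)) {θ : ℝ → ℝ} (hθ : ContDiff ℝ ∞ θ) {ε : ℝ}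
    (hε : 0 < ε) (h0 : ∀ r ≤ ε, θ r = 0) (a b : ℝ) {g : T → M' × ℝ → N} (hg : JS (IC I') O g) :
    LC (IC I') O (univ ×ˢ Ioo a b) fun t x =>
      (θ (ℓ (t, x.2) - ℓ (t, a)) * θ (ℓ (t, b) - ℓ (t, x.2))) • g t (x.1, ℓ (t, x.2)) := by
  have l0 : ∀ t ∈ O, ∀ r, ContDiffAt ℝ ∞ ℓ (t, r) := fun t ht r =>
    hℓ.contDiffAt ((hO.prod isOpen_univ).mem_nhds ⟨ht, trivial⟩)
  refine ⟨fun t ht x => ?_, fun t ht => ?_⟩
  · have l1 : ∀ {r : T × (M' × ℝ) → ℝ}, ContMDiffAt (𝓘(ℝ, T).prod (IC I')) 𝓘(ℝ, ℝ) ∞ r (t, x) →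
        ContMDiffAt (𝓘(ℝ, T).prod (IC I')) 𝓘(ℝ, ℝ) ∞ (fun z => ℓ (z.1, r z)) (t, x) := 
      fun {r} hr => (l0 t ht _).comp_contMDiffAt (f := fun z : T × (M' × ℝ) => (z.1, r z))
        (contMDiffAt_fst.prodMk_space hr)
    have l2 := l1 (contMDiffAt_snd.comp _ contMDiffAt_snd)
    exact ((hθ.contDiffAt.comp_contMDiffAt (l2.sub (l1 contMDiffAt_const))).mul
      (hθ.contDiffAt.comp_contMDiffAt ((l1 contMDiffAt_const).sub l2))).smul
        (ContMDiffAt.comp (g := fun z : T × (M' × ℝ) => g z.1 z.2) (t, x) (hg t ht _)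
          (contMDiffAt_fst.prodMk ((contMDiffAt_fst.comp _ contMDiffAt_snd).prodMk l2)))
  · have c1 : ∀ r, ContinuousAt (fun s => ℓ (s, r)) t := fun r =>
      (l0 t ht r).continuousAt.comp (f := fun s => (s, r)) (by fun_prop)
    have c2 : ∀ r, ContinuousAt (fun r => ℓ (t, r)) r := fun r =>
      (l0 t ht r).continuousAt.comp (f := fun r => (t, r)) (by fun_prop)
    obtain ⟨a', a1, a2⟩ := ((((c2 a).sub continuousAt_const).eventually_lt continuousAt_const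
      (show ℓ (t, a) - ℓ (t, a) < ε by linarith)).filter_mono nhdsWithin_le_nhds).and
        (self_mem_nhdsWithin (s := Ioi a)) |>.exists
    obtain ⟨b', b1, b2⟩ := (((continuousAt_const.sub (c2 b)).eventually_lt continuousAt_const
      (show ℓ (t, b) - ℓ (t, b) < ε by linarith)).filter_mono nhdsWithin_le_nhds).and
        (self_mem_nhdsWithin (s := Iio b)) |>.exists
    refine ⟨univ ×ˢ Icc a' b', prod_mono_right (Icc_subset_Ioo a2 b2),
      isCompact_univ.prod isCompact_Icc, ?_⟩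
    filter_upwards [((c1 a').sub (c1 a)).eventually_lt continuousAt_const a1,
      ((c1 b).sub (c1 b')).eventually_lt continuousAt_const b1, hO.mem_nhds ht] with s s1 s2 hs x hx
    rw [Pi.sub_apply] at s1 s2
    rcases not_and_or.1 fun h => hx ⟨trivial, h⟩ with h | h
    · rw [h0 _ (by linarith [hm s hs (not_le.1 h).le]), zero_mul, zero_smul]
    · rw [h0 (ℓ (s, b) - _) (by linarith [hm s hs (not_le.1 h).le]), mul_zero, zero_smul]

variable (G) in
/-- the integral over the slice -/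
def sa (u : M' × ℝ → ℝ) (x : M' × ℝ) : ℝ := ∫ z, u (z, x.2) ∂G.μ

variable (G) in
/-- the constant `1` -/
def oo : G.H 0 (triv M' ℝ) := G.toH 0 _ ⟨fun _ => 1, mem_triv contMDiff_const (.of_compactSpace _)⟩

theorem sa_eq (u : Sec (IC I') (pc (triv M' ℝ))) (x : M' × ℝ) :
    sa G u.1 x = ⟪oo G, G.toH 0 _ (slc u x.2)⟫_ℝ := by
  simp [oo, inner_toH, Pre.ip, sa, slc]

theorem sm_sa (hu : Sm (IC I') u) : ContDiff ℝ ∞ fun t => ∫ z, u (z, t) ∂G.μ := by
  simpa only [one_smul, contDiffOn_univ] using (JS.sb (F := G) isOpen_univ (f := fun t z => u (z, t))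
    fun t _ x => (hu _).comp (t, x) (contMDiffAt_snd.prodMk contMDiffAt_fst)).integral
      (continuous_const (y := (1 : ℝ))) (.of_compactSpace _)

theorem sa_mem (hu : u ∈ Sec (IC I') (triv _ ℝ)) : sa G u ∈ Sec (IC I') (triv _ ℝ) :=
  mem_triv (sm_snd (sm_sa hu.1)) (.intro (isCompact_univ.prod (hu.2.1.isCompact.image
    continuous_snd)) fun x hx => by
      simp only [sa, fun z => image_eq_zero_of_notMem_tsupport (f := u) fun h : (z, x.2) ∈ _ =>
        hx ⟨trivial, _, h, rfl⟩, integral_zero])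

theorem D_sa (hu : u ∈ Sec (IC I') (triv _ ℝ)) :
    (cylP G).D none (sa G u) = sa G ((cylP G).D none u) := funext fun x => by
  rw [D_none G (sa_mem hu).1]
  simp only [sa_eq ⟨u, hu⟩]
  exact (((innerSL ℝ (oo G)).hasFDerivAt.comp_hasDerivAt _
    (hasDerivAt_slc ⟨u, hu⟩ x.2)).deriv).trans (sa_eq (dt G ⟨u, hu⟩) x).symm

theorem n2_sa (k : ℕ) : ∀ {u}, u ∈ Sec (IC I') (triv _ ℝ) →
    N2 (cylP G) k (sa G u) ≤ (‖oo G‖ ^ 2) ^ 2 * N2 (cylP G) k u := by
  have h0 : ∀ {u}, u ∈ Sec (IC I') (pc (triv M' ℝ)) →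
      N2 (cylP G) 0 (sa G u) ≤ (‖oo G‖ ^ 2) ^ 2 * N2 (cylP G) 0 u := fun {u} hu => by
    have h1 : sa G u ∈ Sec (IC I') (pc (triv M' ℝ)) := sa_mem hu
    rw [← ip_eq, ← ip_eq, ← ip_slc_zero h1.1 h1.2.1 h1.1, ← ip_slc_zero hu.1 hu.2.1 hu.1,
      ← integral_const_mul]
    refine integral_mono (int_ip h1.1 h1.2.1) ((int_ip hu.1 hu.2.1).const_mul _) fun t => ?_
    have e : slc ⟨_, h1⟩ t = ⟪oo G, G.toH 0 _ (slc ⟨u, hu⟩ t)⟫_ℝ •
        ⟨fun _ => 1, mem_triv contMDiff_const (.of_compactSpace _)⟩ :=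
      Subtype.ext (funext fun y => (sa_eq ⟨u, hu⟩ (y, t)).trans (mul_one _).symm)
    have h2 := G.inner_toH 0 _ (slc ⟨_, h1⟩ t) (slc ⟨_, h1⟩ t)
    have h3 := G.inner_toH 0 _ (slc ⟨u, hu⟩ t) (slc ⟨u, hu⟩ t)
    refine h2.symm.trans_le (le_of_le_of_eq ?_ (congrArg _ h3))
    rw [e, map_smul, real_inner_self_eq_norm_sq, real_inner_self_eq_norm_sq, norm_smul, ← oo,
      ← mul_pow]
    refine pow_le_pow_left₀ (by positivity) ?_ 2
    nlinarith [mul_le_mul_of_nonneg_right (norm_inner_le_norm (𝕜 := ℝ) (oo G)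
      (G.toH 0 _ (slc ⟨u, hu⟩ t))) (norm_nonneg (oo G))]
  induction k with
  | zero => exact h0
  | succ k ih =>
    intro u hu
    simp only [n2_succ, mul_add, Finset.mul_sum]
    refine add_le_add (h0 hu) (Finset.sum_le_sum fun a _ => ?_)
    cases a with
    | none => rw [← D_def, D_sa hu]; exact ih (dt_mem (p := triv M' ℝ) G hu)
    | some a =>
      rw [← D_def, show (cylP G).D (some a) (sa G u) = (0 : Sec (IC I') (triv _ ℝ)).1 from
        D_some_snd G (sm_sa hu.1) a, ← N2, ← ip_eq, ← inner_toH, map_zero, inner_zero_left]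
      exact mul_nonneg (sq_nonneg _) (n2_nonneg _ _)

theorem rep_sa (k : ℕ) : (cylP G).Rep ((cylP G).lift k k (triv _ ℝ) (triv _ ℝ) (sa G)) (sa G) :=
  (rep_liftT (C := ‖oo G‖ ^ 2) (fun _ => sa_mem) (fun u hu v hv => funext fun x => by
    rw [Pi.add_apply, sa_eq ⟨u, hu⟩, sa_eq ⟨v, hv⟩, ← inner_add_right, ← map_add]
    exact sa_eq (G := G) (⟨u, hu⟩ + ⟨v, hv⟩) x) (fun c u _ => funext fun x => integral_smul c _)
    (sq_nonneg _) fun u hu => by
      rw [nrm_eq, nrm_eq, ← Real.sqrt_sq (sq_nonneg ‖oo G‖), ← Real.sqrt_mul (sq_nonneg _)]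
      exact Real.sqrt_le_sqrt (n2_sa k hu)).1

/-- **the slice integral on the Sobolev scale** -/
theorem exists_sl {F F₀ : Pre I M (Option ι)} {ψ : OpenPartialHomeomorph (M' × ℝ) M}
    (h : Iso (cylP G) F₀ ψ) (hc : Cmp F F₀) {A : Set ℝ} (hA : IsCompact A)
    (hs : univ ×ˢ A ⊆ ψ.source) (k : ℕ) :
    ∃ (L : F.H k (triv M ℝ) →L[ℝ] F.H k (triv M ℝ)) (Λ : (M → ℝ) → M → ℝ), F.Rep L Λ ∧
      ∀ u y, ∀ r ∈ A, Λ u (ψ (y, r)) = ∫ z, u (ψ (z, r)) ∂G.μ := by
  have h1 : IsCompact (univ ×ˢ A : Set (M' × ℝ)) := isCompact_univ.prod hA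
  obtain ⟨c, c1, c2, c3, -, c4⟩ := Met55.exists_cut (I := IC I') h1 ψ.open_source hs
  obtain ⟨χ, d1, d2, d3, -, d4⟩ := Met55.exists_cut (I := I)
    (h1.image_of_continuousOn (ψ.continuousOn.mono hs)) ψ.open_target
    (image_subset_iff.2 fun x hx => ψ.map_source (hs hx))
  let m := ContinuousLinearMap.mul ℝ ℝ
  obtain ⟨_, e1⟩ := Cb_clm m (Cb_of_hcs (F := cylP G) c1 c2)
  obtain ⟨_, e2⟩ := Cb_clm m (Cb_of_hcs (F := F₀) d1 d2)
  have ts : ∀ {Z : Type} [TopologicalSpace Z] (f : Z → ℝ), tsupport (fun x => m (f x)) ⊆ tsupport f :=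
    fun f => closure_mono fun x hx e => hx (by simp [e])
  refine ⟨_, _, rep_conj hc (RepT_comp (rep_trH (iso_symm h) e1.1 (e1.2 k) ((ts c).trans c3)
    fun _ _ _ _ => rfl).1 (RepT_comp (rep_sa k) (rep_trH h e2.1 (e2.2 k) ((ts χ).trans d3)
      fun _ _ _ _ => rfl).1)), fun u y r hr => ?_⟩
  have k1 : ∀ z, (z, r) ∈ ψ.source := fun z => hs ⟨trivial, hr⟩
  simp only [pull_of_mem (φ := ψ.symm) (ψ.map_source (k1 y)), ψ.left_inv (k1 y), sa,
    pull_of_mem (k1 _), (c4 (y, r) ⟨trivial, hr⟩).self_of_nhds,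
    fun z => (d4 _ (mem_image_of_mem ψ (show (z, r) ∈ univ ×ˢ A from ⟨trivial, hr⟩))).self_of_nhds]
  simp [m]

end Crest.Agent.X212.Clf97
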