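import Crest.Agent.X212.Clf97.Loc
import Crest.Agent.X212.Map77.S1
import Crest.Agent.X212.Ax1.Poi
import Crest.Agent.X212.Mon62.NkW
import Crest.Agent.X212.Ten12.Sob

/-!
# Row 212, MS-CAL-F (helper97): the calculus on finite stretched necks
-/

set_option autoImplicit false
set_option linter.unusedSectionVars false
noncomputable section
open scoped Manifold ContDiff Topology InnerProductSpace
open MeasureTheory Set Function Filter

namespace Crest.Agent.X212.Clf97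
open An An.Pre Sob92 Prm93 Cyf70 Sw Sw.En3 Mon62 Map77.S
open M (Mf)

variable {κ lam ν : Type} [Fintype κ] [Fintype lam] [Fintype ν] [DecidableEq ν]
  {X : Mf 4} {nc nr : ℕ} {V : Type} [NormedAddCommGroup V] [InnerProductSpace ℝ V]
  [CompleteSpace V] {ε : ℝ} {θ θ' : ℝ → ℝ}

theorem exists_cu {δ : ℝ} (hδ : 0 < δ) : ∃ θ, Cu (δ / 2) θ ∧ ∀ r, δ ≤ r → θ r = 1 := by
  have h : ∀ r, δ ≤ r → Real.smoothTransition ((r - δ / 2) / (δ / 2)) = 1 := fun r hr =>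
    Real.smoothTransition.one_of_one_le ((one_le_div (half_pos hδ)).2 (by linarith))
  exact ⟨_, ⟨Real.smoothTransition.contDiff.comp (by fun_prop), fun r hr =>
    Real.smoothTransition.zero_of_nonpos (div_nonpos_of_nonpos_of_nonneg (by linarith)
      (half_pos hδ).le), δ, h⟩, h⟩

section nk
variable {e : En3 κ lam ν} {b b₀ : Bg X.I X.M κ lam ν nc} {K : Nk e b} {K₀ : Nk e b₀} {z : X.M}

theorem cu_dp (hθ : Cu ε θ) (h : cu K θ z ≠ 0) : z ∈ K.dp ε :=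
  ⟨fun a ha => by_contra fun e => left_ne_zero_of_mul h (by
      rw [Option.mem_def.1 ha, Option.elim_some, hθ.z _ (by linarith [not_le.1 e])]),
    fun a ha => by_contra fun e => right_ne_zero_of_mul h (by
      rw [Option.mem_def.1 ha, Option.elim_some, hθ.z _ (by linarith [not_le.1 e])])⟩

theorem cu_one {δ : ℝ} (h1 : ∀ r, δ ≤ r → θ r = 1) (h : z ∈ K.dp δ) : cu K θ z = 1 := by
  have e : ∀ (o : Option ℝ) (f : ℝ → ℝ), (∀ a ∈ o, δ ≤ f a) → (o.elim 1 fun a => θ (f a)) = 1 :=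
    fun o f hf => by cases o with
      | none => rfl
      | some a => exact h1 _ (hf a rfl)
  rw [cu, e _ _ fun a ha => by linarith [h.1 a ha], e _ _ fun a ha => by linarith [h.2 a ha], one_mul]

theorem xt_tm (hε : 0 < ε) (hθ : Cu ε θ) (g : ℝ → V) :
    xt K θ (fun x => g x.2) z = cu K θ z • g (K.tm z) := by
  by_cases h : cu K θ z = 0
  · rw [xt, h, zero_smul, zero_smul]
  · rw [xt, K.snd_symm (K.dp_sub hε (cu_dp hθ h))]

theorem si_cu {δ s : ℝ} (hδ : 0 < δ) (h1 : ∀ r, δ ≤ r → θ r = 1) (hs : s ∈ Nd18.Dp K.p K.q δ)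
    (w : X.M → V) : si K (fun z => cu K θ z • w z) s = si K w s :=
  congrArg _ (funext fun y => by
    beta_reduce
    rw [cu_one h1 (by rwa [Nd18.Nk.dp, mem_preimage, K.tm_ψ _ (K.mem_src.2 (Nd18.Dp_sub hδ hs))]),
      one_smul])

/-- the window average is a pairing -/
theorem aw_eq {δ τ : ℝ} (hδ : 0 < δ) (hθ : Cu (δ / 2) θ) (h1 : ∀ r, δ ≤ r → θ r = 1)
    (hτ : τ ∈ Nd18.Dp K.p K.q (δ + 1 / 2)) {w : X.M → ℝ}
    (hs : Sm X.I fun z => xt K θ (fun x => bp (x.2 - τ + 1 / 2)) z * (cu K θ z • w z))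
    (hc : HasCompactSupport fun z => xt K θ (fun x => bp (x.2 - τ + 1 / 2)) z * (cu K θ z • w z)) :
    ∫ p, bp p • si K w (τ + p - 1 / 2) =
      ∫ z, xt K θ (fun x => bp (x.2 - τ + 1 / 2)) z * (cu K θ z • w z) ∂b.F.μ := by
  have ts : tsupport (fun z => xt K θ (fun x => bp (x.2 - τ + 1 / 2)) z * (cu K θ z • w z)) ⊆ _ :=
    (closure_minimal (fun z hz => cu_dp hθ fun e => mem_support.1 hz (by
      simp only [e, zero_smul, mul_zero])) K.isClosed_dp).trans (K.dp_sub (half_pos hδ))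
  rw [← integral_pull K.iso hs.continuous (subset_closure.trans ts)]
  refine .trans ?_ ((integral_cyl _ (sm_pull K.iso hs (.of_isCompact hc ts)).continuous
    (hcs_pull hc ts)).trans (integral_add_right_eq_self _ (τ - 1 / 2)).symm).symm
  refine congrArg _ (funext fun p => ?_)
  rw [si, ← integral_smul]
  refine congrArg _ (funext fun y => ?_)
  by_cases hp : p ∈ Icc (0 : ℝ) 1
  · have h2 : p + (τ - 1 / 2) ∈ Nd18.Dp K.p K.q δ := ⟨fun a ha => by linarith [hτ.1 a ha, hp.1],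
      fun a ha => by linarith [hτ.2 a ha, hp.2]⟩
    have h3 : (y, p + (τ - 1 / 2)) ∈ K.ψ.source := K.mem_src.2 (Nd18.Dp_sub hδ h2)
    rw [pull_of_mem h3, xt, cu_one h1 (by rwa [Nd18.Nk.dp, mem_preimage, K.tm_ψ _ h3]),
      K.ψ.left_inv h3, one_smul, one_smul, smul_eq_mul]
    congr 4 <;> ring
  · rw [Pb50.bp_zero hp, zero_smul]
    by_cases h3 : (y, p + (τ - 1 / 2)) ∈ K.ψ.source
    · rw [pull_of_mem h3, xt, K.ψ.left_inv h3, Pb50.bp_zero (by convert hp using 2; ring),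
        smul_zero, zero_mul]
    · rw [pull_of_notMem h3]

variable (K₀ K) in
/-- `K` is `K₀` with the time `l` -/
structure Rl (l : ℝ → ℝ) (a c : ℝ) : Prop where
  p0 : K₀.p = some a
  q0 : K₀.q = some c
  p : K.p = some (l a)
  q : K.q = some (l c)
  mono : StrictMono l
  cont : Continuous l
  ψ : ∀ y, ∀ r ∈ Ioo a c, K.ψ (y, l r) = K₀.ψ (y, r)

theorem src_eq {a c : ℝ} (hp : K.p = some a) (hq : K.q = some c) : K.ψ.source = univ ×ˢ Ioo a c := by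
  rw [K.src, hp, hq]; congr 1; ext; simp [Nd18.Jv]

namespace Rl
variable {l : ℝ → ℝ} {a c : ℝ} (h : Rl K K₀ l a c)
include h

theorem mem {x : e.Y.M × ℝ} (hx : x ∈ K₀.ψ.source) :
    (x.1, l x.2) ∈ K.ψ.source ∧ K.ψ (x.1, l x.2) = K₀.ψ x := by
  rw [src_eq h.p0 h.q0] at hx
  rw [src_eq h.p h.q]
  exact ⟨⟨trivial, h.mono hx.2.1, h.mono hx.2.2⟩, h.ψ _ _ hx.2⟩

theorem tgt (hz : z ∈ K.ψ.target) : z ∈ K₀.ψ.target := by
  have h1 := K.ψ.map_target hz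
  rw [src_eq h.p h.q] at h1
  obtain ⟨r, r1, r2⟩ := intermediate_value_Ioo (h.mono.le_iff_le.1 (h1.2.1.trans h1.2.2).le)
    h.cont.continuousOn h1.2
  rw [← K.ψ.right_inv hz, ← Prod.mk.eta (p := K.ψ.symm z), ← r2, h.ψ _ _ r1]
  exact K₀.ψ.map_source (src_eq h.p0 h.q0 ▸ ⟨trivial, r1⟩)

theorem xt_eq (hε : 0 < ε) (hθ : Cu ε θ) (g : e.Y.M × ℝ → V) : xt K θ g = pull K₀.ψ.symm fun x =>
    (θ (l x.2 - l a) * θ (l c - l x.2)) • g (x.1, l x.2) := funext fun z => by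
  by_cases hz : z ∈ K₀.ψ.target
  · obtain ⟨h1, h2⟩ := h.mem (K₀.ψ.map_target hz)
    rw [K₀.ψ.right_inv hz] at h2
    rw [pull_of_mem (φ := K₀.ψ.symm) hz, xt, cu, h.p, h.q]
    conv_lhs => rw [← h2, K.tm_ψ _ h1, K.ψ.left_inv h1]
    rfl
  · rw [pull_of_notMem (φ := K₀.ψ.symm) hz, xt, by_contra (p := cu K θ z = 0) fun e =>
      hz (h.tgt (K.dp_sub hε (cu_dp hθ e))), zero_smul]

end Rl
end nk

variable {d : Dt κ lam ν} {N : Type} [Fintype N] {ty : N → d.𝓔}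
  {T : Type} [NormedAddCommGroup T] [NormedSpace ℝ T] [FiniteDimensional ℝ T]
  {s : Pz X 0 fun i => d.e (ty i)} {σ : Cel s nc nr T} {i : N} {k j : ℕ}

theorem a0_of (h : Hy σ) (hk : 4 ≤ k) (hj : 4 ≤ j) {w : σ.Pnt → X.M → V} {p : Prop}
    {δ : σ.C k → s.bg.F.H j (triv X.M V)} (hδ : ContDiffOn ℝ ∞ δ (σ.U k))
    (hw : ∀ y, s.bg.F.Cb (w y)) (e : ∀ y, Is s.bg.F.toPre j _ (δ (σ.pt k y)) (w y)) :
    (h.dm hk).A0 p j fun _ => w :=
  .of_pure ⟨fun _ => hw, Dm.ub_of_finite fun _ => hw _⟩ (δ := fun _ => δ)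
    (.of_compact (fun _ => isCompact_singleton) fun _ => hδ) fun _ y x =>
      (congrFun ((e y).val_eq ((h.dm hk).sup ()) hj (Cb.sm (hw y)).continuous) x).symm

theorem sm_t {Z : Type} [NormedAddCommGroup Z] [NormedSpace ℝ Z] {f : T → Z}
    (hf : ContDiffOn ℝ ∞ f σ.Q) : ContDiffOn ℝ ∞ (fun v : σ.C k => f v.2.2) (σ.U k) :=
  hf.comp (contDiff_snd.comp contDiff_snd).contDiffOn fun _ h => h

variable (σ i) in
/-- the transport to the neck at `t` -/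
def XT (θ : ℝ → ℝ) (g : (d.e (ty i)).Y.M × ℝ → V) (t : T) (z : X.M) : V :=
  ((σ.P t).nk i).elim 0 fun K => xt K θ g z

variable (σ i) in
/-- the data of `StrQ` -/
structure St {t₀ : T} (K₀ : Nk (d.e (ty i)) (σ.P t₀).bg) (ℓ : T × ℝ → ℝ) (a c : ℝ) : Prop where
  h : Hy σ
  t0 : t₀ ∈ σ.Q
  sm : ContDiffOn ℝ ∞ ℓ (σ.Q ×ˢ univ)
  rl : ∀ t ∈ σ.Q, ∃ K, (σ.P t).nk i = some K ∧ Rl K K₀ (fun r => ℓ (t, r)) a c

theorem exists_st (h : Hy σ) (hs : StrQ σ i) : ∃ t₀ K₀ ℓ a c, St σ i (t₀ := t₀) K₀ ℓ a c := by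
  obtain ⟨t₀, h0, K₀, -, a, c, p0, q0, ℓ, l1, l2⟩ := hs
  refine ⟨t₀, K₀, ℓ, a, c, h, h0, l1, fun t ht => ?_⟩
  obtain ⟨m, K, k1, k2, k3, k4⟩ := l2 t ht
  exact ⟨K, k1, p0, q0, k2, k3, strictMono_of_deriv_pos m, l1.continuousOn.comp_continuous
    (by fun_prop) fun _ => ⟨ht, trivial⟩, k4⟩

namespace St
variable {t₀ : T} {K₀ : Nk (d.e (ty i)) (σ.P t₀).bg} {ℓ : T × ℝ → ℝ} {a c : ℝ}
  (h : St σ i K₀ ℓ a c) (hε : 0 < ε) (hθ : Cu ε θ)
include h hε hθ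

theorem lc {T' : Type} [NormedAddCommGroup T'] [NormedSpace ℝ T'] {O : Set T'} (hO : IsOpen O)
    {π : T' → T} (hπ : ContDiff ℝ ∞ π) (hm : MapsTo π O σ.Q)
    {g : T' → (d.e (ty i)).Y.M × ℝ → V} (hg : JS (IC (d.e (ty i)).Y.I) O g) :
    LC X.I O K₀.ψ.target fun t => XT σ i θ (g t) (π t) := by
  obtain ⟨_, -, r0⟩ := h.rl _ h.t0
  refine (LC.pull (φ := K₀.ψ.symm) K₀.iso.sm' (src_eq r0.p0 r0.q0 ▸ lc_cyl hO
    (ℓ := fun z => ℓ (π z.1, z.2)) (h.sm.comp ((hπ.comp contDiff_fst).prodMk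
      contDiff_snd).contDiffOn fun z hz => ⟨hm hz.1, trivial⟩) (fun t ht =>
        let ⟨_, _, r⟩ := h.rl _ (hm ht); r.mono.monotone) hθ.sm hε hθ.z a c hg :
          LC _ O K₀.ψ.source _)).congr hO fun t ht => ?_
  obtain ⟨K, k1, r⟩ := h.rl _ (hm ht)
  exact (funext fun z => by rw [XT, k1, Option.elim_some]).trans (r.xt_eq hε hθ _)

theorem lc0 {f : (d.e (ty i)).Y.M × ℝ → V} (hf : Sm (IC (d.e (ty i)).Y.I) f) :
    LC X.I σ.Q K₀.ψ.target (XT σ i θ f) :=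
  h.lc hε hθ h.h.ok.opn contDiff_id (mapsTo_id _) fun _ _ x => .of_fixed (hf x)

theorem xt (hk : 4 ≤ k) (hj : 4 ≤ j) {p : Prop} {f : (d.e (ty i)).Y.M × ℝ → V}
    (hf : Sm (IC (d.e (ty i)).Y.I) f) : (h.h.dm hk).A0 p j fun _ y => XT σ i θ f y.1.1 :=
  let ⟨_, a, b⟩ := (h.lc0 hε hθ hf).toH s.bg.F.toPre h.h.ok.opn j
  a0_of h.h hk hj (sm_t a) (fun y => (h.lc0 hε hθ hf).cb y.2.1) fun y => b _ y.2.1

/-- cutting off -/
theorem cut (hk : 4 ≤ k) (hj : 4 ≤ j) {p : Prop} {w : σ.Pnt → X.M → ℝ}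
    (hw : (h.h.dm hk).A0 p j fun _ => w) : ∃ δ : σ.C k → s.bg.F.H j (triv X.M ℝ),
      ContDiffOn ℝ ∞ δ (σ.U k) ∧ ∀ y, ∃ u : Sec X.I (triv X.M ℝ), δ (σ.pt k y) = s.bg.F.toH j _ u ∧
        ∀ K, (σ.P y.1.1).nk i = some K → u.1 = fun z => cu K θ z • w y z := by
  have h1 := h.lc0 (V := ℝ) hε hθ (f := fun _ => 1) contMDiff_const
  obtain ⟨δ, d1, d2⟩ := ((Dm.A0.smul (Lev.left (by omega) (by omega)) hj (h.xt hε hθ hk
    (j := j + 7) (by omega) (p := True) (f := fun _ => (1 : ℝ)) contMDiff_const) hw).imp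
      Or.inl).pure
  refine ⟨δ (), d1.sm (), fun y => ?_⟩
  let u : Sec X.I (triv X.M ℝ) := ⟨fun x => XT σ i θ (fun _ => (1 : ℝ)) y.1.1 x • w y x,
    mem_triv ((h1.js.sm y.2.1).smul (hw.sz.sm () y)) ((h1.hcs y.2.1).smul_right)⟩
  refine ⟨u, val_injective ((h.h.dm hk).sup ()) hj ((d2 () y).symm.trans
    (val_toH (F := s.bg.F.toPre) ((h.h.dm hk).sup ()) hj u).symm), fun K hK => funext fun z => ?_⟩
  simp [u, XT, hK, Map77.S.xt]

theorem exists_lm (j : ℕ) : ∃ Λ : T → s.bg.F.H j (triv X.M ℝ) →L[ℝ] s.bg.F.H j (triv X.M ℝ),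
    ContDiffOn ℝ ∞ Λ σ.Q ∧ ∀ t ∈ σ.Q, ∀ K, (σ.P t).nk i = some K → s.bg.F.Rep (Λ t) (lm K θ) := by
  have h1 := h.lc0 (V := ℝ) hε hθ (f := fun _ => 1) contMDiff_const
  have h2 := h1.sb s.bg.F.toPre h.h.ok.opn
  have key : ∀ t ∈ σ.Q, ∃ L : s.bg.F.H j (triv X.M ℝ) →L[ℝ] s.bg.F.H j (triv X.M ℝ), ∀ᶠ r in 𝓝 t,
      s.bg.F.Rep (smulH s.bg.F.toPre j _ (XT σ i θ (fun _ => 1) r) ∘L L)
        fun u x => ((σ.P r).nk i).elim 0 fun K => lm K θ u x := fun t ht => by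
    obtain ⟨A, a1, a2, a3⟩ := h1.cp t ht
    obtain ⟨L, Λ, l1, l2⟩ := exists_sl K₀.iso (Ax1.cmp h.h.ok h.t0) (A := K₀.tm '' A)
      (a2.image K₀.cont) (fun x ⟨_, z, hz, e⟩ => K₀.mem_src.2 (e ▸ (K₀.tgt ▸ a1 hz :))) j
    refine ⟨L, (a3.and (h.h.ok.opn.mem_nhds ht)).mono fun r ⟨r1, r2⟩ =>
      RepT_congr (RepT_comp (rep_smulH (h2.cb r r2)) l1) fun u => funext fun z => ?_⟩
    obtain ⟨K, k1, k2⟩ := h.rl r r2
    have e : XT σ i θ (fun _ => (1 : ℝ)) r z = cu K θ z := by simp [XT, k1, Map77.S.xt]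
    rw [k1, Option.elim_some, lm, e]
    by_cases hz : z ∈ A
    · have z1 := K₀.ψ.map_target (a1 hz)
      have z2 := k2.mem z1
      rw [K₀.ψ.right_inv (a1 hz)] at z2
      have z3 := l2 u.1 (K₀.ψ.symm z).1 _ ⟨z, hz, (K₀.snd_symm (a1 hz)).symm⟩
      rw [Prod.mk.eta, K₀.ψ.right_inv (a1 hz)] at z3
      rw [z3, show K.tm z = ℓ (r, (K₀.ψ.symm z).2) from (congrArg K.tm z2.2.symm).trans (K.tm_ψ _ z2.1), si]
      have z4 := K₀.mem_src.1 z1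
      simp only [fun y => (k2.mem (x := (y, (K₀.ψ.symm z).2)) (K₀.mem_src.2 z4)).2]
    · rw [← e, r1 z hz, zero_smul, zero_smul]
  refine ⟨fun t => s.bg.F.lift j j _ _ fun u x => ((σ.P t).nk i).elim 0 fun K => lm K θ u x,
    fun t ht => ?_, fun t ht K hK => ?_⟩
  · obtain ⟨L, hL⟩ := key t ht
    exact ((((h2.smulH (Cb_const _) fun _ _ => rfl).contDiffAt (h.h.ok.opn.mem_nhds ht)).clm_comp
      contDiffAt_const).congr_of_eventuallyEq (hL.mono fun r hr => hr.liftT_eq)).contDiffWithinAt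
  · obtain ⟨L, hL⟩ := key t ht
    have := hL.self_of_nhds
    rw [← this.liftT_eq] at this
    exact RepT_congr this fun u => by rw [hK]; rfl

theorem lm (hk : 4 ≤ k) (hj : 4 ≤ j) {p p' : Prop} {w : σ.Pnt → X.M → ℝ}
    (hw : (h.h.dm hk).A0 p j fun _ => w) : (h.h.dm hk).A0 p' j fun _ y x =>
      ((σ.P y.1.1).nk i).elim 0 fun K => Map77.S.lm K θ (w y) x := by
  obtain ⟨θ', t1, t2⟩ := exists_cu hε
  obtain ⟨δ, d1, d2⟩ := h.cut (half_pos hε) t1 hk hj hw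
  obtain ⟨Λ, l1, l2⟩ := h.exists_lm hε hθ j
  have key : ∀ y : σ.Pnt, ∃ u : Sec X.I (triv X.M ℝ), Λ y.1.1 (δ (σ.pt k y)) = s.bg.F.toH j _ u ∧
      (fun x => ((σ.P y.1.1).nk i).elim 0 fun K => Map77.S.lm K θ (w y) x) = u.1 := fun y => by
    obtain ⟨K, k1, -⟩ := h.rl _ y.2.1
    obtain ⟨u, u1, u2⟩ := d2 y
    refine ⟨_, u1 ▸ RepT_toH (l2 _ y.2.1 K k1) u, funext fun z => ?_⟩
    simp only [k1, Option.elim_some, u2 K k1, Map77.S.lm]
    by_cases e : cu K θ z = 0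
    · rw [e, zero_smul, zero_smul]
    · rw [si_cu hε t2 (cu_dp hθ e)]
  exact a0_of h.h hk hj ((sm_t l1).clm_apply d1) (fun y => let ⟨u, _, b⟩ := key y
    b ▸ Cb_of_hcs u.2.1 u.2.2.1) fun y => let ⟨u, a, b⟩ := key y; (a ▸ b ▸ Is.toH u :)

omit hε in
theorem aw (hε : 1 / 2 < ε) (hk : 4 ≤ k) {l : ℕ} (hl : 4 ≤ l) (hj : 4 ≤ j) {p p' : Prop}
    {w : σ.Pnt → X.M → ℝ} (hw : (h.h.dm hk).A0 p l fun _ => w) : (h.h.dm hk).A0 p' j fun _ y x =>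
      ((σ.P y.1.1).nk i).elim 0 fun K => Map77.S.aw K θ (w y) x := by
  have e0 : 0 < ε := by linarith
  have e1 := sub_pos.2 hε
  have hQ := h.h.ok.opn
  obtain ⟨θ', t1, t2⟩ := exists_cu e1
  obtain ⟨δ, d1, d2⟩ := h.cut (half_pos e1) t1 hk hl hw
  obtain ⟨ρ, r1, r2⟩ := h.h.ok.dens
  have sb : ContDiff ℝ ∞ bp := (contDiff_infty_iff_deriv.1 Real.smoothTransition.contDiff).2
  have h1 := h.lc (half_pos e1) t1 (hQ.prod isOpen_univ) contDiff_fst (fun _ hz => hz.1)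
    (g := fun (z : T × ℝ) x => bp (x.2 - z.2 + 1 / 2)) fun z _ x =>
      sb.contDiffAt.comp_contMDiffAt (((contMDiffAt_snd.comp _ contMDiffAt_snd).sub
        (contDiffAt_snd.comp_contMDiffAt contMDiffAt_fst)).add contMDiffAt_const)
  obtain ⟨Φ, f1, f2⟩ := h1.toH s.bg.F.toPre (hQ.prod isOpen_univ) 0
  have h2 := h.lc e0 hθ hQ contDiff_id (mapsTo_id _) (g := fun t x => Φ (t, x.2)) fun t ht x =>
    (f1.contDiffAt ((hQ.prod isOpen_univ).mem_nhds ⟨ht, trivial⟩)).comp_contMDiffAt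
      (f := fun z : T × (_ × ℝ) => (z.1, z.2.2))
      (contMDiffAt_fst.prodMk_space (contMDiffAt_snd.comp _ contMDiffAt_snd))
  obtain ⟨Ψ, g1, g2⟩ := h2.toH s.bg.F.toPre hQ j
  have a1 := (sm_t (r1.smulH (k := 0) (p := triv X.M ℝ) (Cb_const _) fun _ _ => rfl)).clm_apply
    ((s.bg.F.incl l 0 _).contDiff.comp_contDiffOn d1)
  have key : ∀ y : σ.Pnt, (fun x => ((σ.P y.1.1).nk i).elim 0 fun K => Map77.S.aw K θ (w y) x) =
      fun x => innerSL ℝ (smulH s.bg.F.toPre 0 _ (ρ y.1.1) (s.bg.F.incl l 0 _ (δ (σ.pt k y))))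
        (XT σ i θ (fun x => Φ (y.1.1, x.2)) y.1.1 x) := fun y => funext fun z => by
    obtain ⟨K, k1, -⟩ := h.rl _ y.2.1
    obtain ⟨u, u1, u2⟩ := d2 y
    rw [XT, k1, Option.elim_some, Option.elim_some, xt_tm e0 hθ fun r => Φ (y.1.1, r), map_smul,
      Map77.S.aw]
    by_cases e : cu K θ z = 0
    · rw [e, zero_smul, zero_smul]
    · have m : (y.1.1, K.tm z) ∈ σ.Q ×ˢ univ := ⟨y.2.1, trivial⟩
      have e2 : XT σ i θ' (fun x => bp (x.2 - K.tm z + 1 / 2)) y.1.1 =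
          Map77.S.xt K θ' fun x => bp (x.2 - K.tm z + 1 / 2) := funext fun z => by
        rw [XT, k1, Option.elim_some]
      have e3 := u2 K k1
      rw [aw_eq e1 t1 t2 ((sub_add_cancel ε _).symm ▸ cu_dp hθ e) ((e2 ▸ h1.js.sm m :).mul
        (e3 ▸ u.2.1 :)) ((e3 ▸ u.2.2.1 :).mul_left), innerSL_apply_apply, u1, Dm.is_inner
          (((Is.toH u).incl l.zero_le).smulH (r1.cb _ y.2.1)) (f2 _ m), (r2 _ y.2.1).2,
        integral_withDensity_eq_integral_toReal_smul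
          (Cb.sm (r1.cb _ y.2.1)).continuous.measurable.ennreal_ofReal
          (.of_forall fun _ => ENNReal.ofReal_lt_top)]
      simp only [ENNReal.toReal_ofReal ((r2 _ y.2.1).1 _).le, e2, e3, smul_eq_mul, RCLike.inner_apply,
        conj_trivial, mul_left_comm]
  refine a0_of h.h hk hj (((Ten12.cH _ ℝ s.bg.F.toPre j ∘L innerSL ℝ).contDiff.comp_contDiffOn
    a1).clm_apply (sm_t g1)) (fun y => key y ▸ Cb_clm _ (h2.cb y.2.1)) fun y => ?_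
  rw [key]
  exact (g2 _ y.2.1).mulH (Cb_const _) (Maps.triv _)

end St

variable (d ty X nc nr T) in
/-- **CAL-F** -/
theorem calF : CalF d ty X nc nr T := fun _ _ h _ hk _ _ hs =>
  let ⟨_, _, _, _, _, H⟩ := exists_st h hs
  ⟨fun _ _ hε hθ V _ _ _ _ hf _ hj => have := FiniteDimensional.complete ℝ V
      H.xt hε hθ hk hj (Cb.sm hf),
    fun _ _ hε hθ _ _ _ hj hw => H.lm hε hθ hk hj hw,
    fun _ _ hε hθ _ _ _ _ hl hj hw => H.aw hθ hε hk hl hj hw⟩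

end Crest.Agent.X212.Clf97
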